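import Vale.Agent.P141.H540.GenRA

/-!
# P141, line (A): the hypotheses of the masked shifted sums for the signs of a generation

Letters of `H540.GenRA`, `H841.Lay`.

* `Hs j x0 p` : the squared Hilbert-Schmidt norm of the slot `Rm s j` at `(x0, p)`;
* `Dg` : the cells of `x0` where a neighbour of an ancestor of the point `y` is large;
* `Dg_mono`, `h1_sG`, `h2_sG` : the three hypotheses on the layers of the generation `g + 1`;
* `card_Dg` : `Dg 0` is inside the event of three points.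
-/

namespace Vale.Agent.P141.H232

open Finset Matrix
open Vale.Agent.P141.PL (iv hs ix mem_iv ix_ix)
open Vale.Agent.P141.H970
open Vale.Agent.P141.H43 (nsq nsq_nonneg)
open Vale.Agent.P141.H922 (ck)
open Vale.Agent.P141.H690 (tr6 tr6_zero XT_symm)
open Vale.Agent.P141.H677 (MT ix_two ix_le hs_ix)
open Vale.Agent.P141.H841 (Rm Lm nsq_add_le nsq_sub_le nsq_sum_le Lm_le Nn ix_half)
open Vale.Agent.P141.H540 (XS XS_eq thS sG gmm gmm_eq gn_st)

noncomputable section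

open scoped Classical

variable {ι : Type*} [Fintype ι] [DecidableEq ι]

/-! ### The squared Hilbert-Schmidt norm -/

/-- squared Hilbert-Schmidt norm -/
def hsn (A : Matrix ι ι ℝ) : ℝ := ∑ a, nsq (A *ᵥ Pi.single a 1)

theorem hsn_nonneg (A : Matrix ι ι ℝ) : 0 ≤ hsn A := sum_nonneg fun _ _ => nsq_nonneg _

theorem hsn_eq (A : Matrix ι ι ℝ) : hsn A = ∑ a, ∑ b, A b a ^ 2 := by
  unfold hsn
  refine sum_congr rfl fun a _ => ?_
  rw [H841.nsq_eq]
  refine sum_congr rfl fun b _ => ?_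
  rw [mulVec_single_one]
  rfl

theorem hsn_add_le (A B : Matrix ι ι ℝ) : hsn (A + B) ≤ 2 * hsn A + 2 * hsn B := by
  unfold hsn
  rw [mul_sum, mul_sum, ← sum_add_distrib]
  refine sum_le_sum fun a _ => ?_
  rw [add_mulVec]
  exact nsq_add_le _ _

theorem hsn_sub_le (A B : Matrix ι ι ℝ) : hsn (A - B) ≤ 2 * hsn A + 2 * hsn B := by
  unfold hsn
  rw [mul_sum, mul_sum, ← sum_add_distrib]
  refine sum_le_sum fun a _ => ?_
  rw [sub_mulVec]
  exact nsq_sub_le _ _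

theorem hsn_sum_le {J : Type*} (S : Finset J) (B : J → Matrix ι ι ℝ) :
    hsn (∑ i ∈ S, B i) ≤ S.card * ∑ i ∈ S, hsn (B i) := by
  unfold hsn
  rw [sum_comm, mul_sum]
  refine sum_le_sum fun a _ => ?_
  rw [Matrix.sum_mulVec]
  have h := nsq_sum_le S (fun _ => (1 : ℝ)) (fun _ _ => one_pos) fun i => B i *ᵥ Pi.single a 1
  simpa using h

theorem nsq_mulVec_le (A : Matrix ι ι ℝ) (w : ι → ℝ) : nsq (A *ᵥ w) ≤ hsn A * nsq w := by
  rw [H841.nsq_eq, H841.nsq_eq, hsn_eq, sum_comm, sum_mul]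
  refine sum_le_sum fun b _ => ?_
  have h := sum_mul_sq_le_sq_mul_sq univ (fun a => A b a) w
  exact h

theorem hsn_mul_le (A B : Matrix ι ι ℝ) : hsn (A * B) ≤ hsn A * hsn B := by
  unfold hsn
  rw [mul_sum]
  refine sum_le_sum fun a _ => ?_
  rw [← mulVec_mulVec]
  exact nsq_mulVec_le A _

/-- the sixth moment of a symmetric matrix by the Hilbert-Schmidt norm -/
theorem tr6_le_hsn {A : Matrix ι ι ℝ} (hA : Aᵀ = A) : tr6 A ≤ hsn A ^ 3 := by
  have e : tr6 A = hsn (A * (A * A)) := by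
    have h1 : hsn (A * (A * A)) = ((A * (A * A))ᵀ * (A * (A * A))).trace := by
      rw [hsn_eq]
      simp only [trace, diag_apply, mul_apply, transpose_apply, sq]
    rw [h1, transpose_mul, transpose_mul, hA]
    unfold H690.tr6
    simp only [Matrix.mul_assoc]
  rw [e]
  have h2 := hsn_mul_le A (A * A)
  have h3 := mul_le_mul_of_nonneg_left (hsn_mul_le A A) (hsn_nonneg A)
  calc hsn (A * (A * A)) ≤ hsn A * (hsn A * hsn A) := h2.trans h3
    _ = hsn A ^ 3 := by ring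

/-! ### The slot at a point -/

variable {l : ℝ} {n : ℕ} {Kq : ℕ → ℤ → Matrix ι ι ℝ} {M : ℕ → ℝ} {o x1 : ℤ}
  {s : ℕ → ℤ → ℤ → ℝ}

omit [Fintype ι] [DecidableEq ι] in
/-- the slot depends only on the cells of scale `j` -/
theorem Rm_ix {Mx : ℕ → ℤ → Matrix ι ι ℝ} {j : ℕ} {x0 y0 p q : ℤ} (h0 : ix j x0 = ix j y0)
    (h3 : ix j p = ix j q) : Rm Mx o x1 s n j x0 p = Rm Mx o x1 s n j y0 q := by
  unfold H841.Rm
  refine sum_congr rfl fun i hi => ?_
  have hi' := (mem_Ico.1 hi).1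
  have a1 := ix_le hi' h0
  have a2 := ix_le hi' h3
  have b1 := ix_le (Nat.le_succ i) a1
  have b2 := ix_le (Nat.le_succ i) a2
  unfold H841.Lm H922.ck
  rw [Nat.succ_eq_add_one] at b1 b2
  rw [b1, b2, hs_ix a1, hs_ix a2]

omit [Fintype ι] [DecidableEq ι] in
theorem Rm_succ {Mx : ℕ → ℤ → Matrix ι ι ℝ} {k : ℕ} (hk : k < n) (x0 p : ℤ) :
    Rm Mx o x1 s n k x0 p = Lm Mx o x1 s (k + 1) x0 p + Rm Mx o x1 s n (k + 1) x0 p := by
  unfold H841.Rm
  rw [sum_eq_sum_Ico_succ_bot hk]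

theorem Lm_XS {k : ℕ} (hk : k + 1 ≤ n) (x0 p : ℤ) :
    Lm (MT l Kq) o x1 s (k + 1) x0 p =
      hs (k + 1) x0 • XS l n Kq o x1 s p (k + 1) (ix (k + 1) x0) := by
  rw [XS_eq hk, smul_smul]
  unfold H841.Lm
  congr 1
  ring

/-- **the path of the generations through the slot** -/
theorem path (x0 p : ℤ) : ∀ d k, k + d = n →
    (∃ js, k ≤ js ∧ js ≤ n ∧
      (st n M (XS l n Kq o x1 s p) (n - k) (ix k x0)).2
          (st n M (XS l n Kq o x1 s p) (n - k) (ix k x0)).1 =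
        Rm (MT l Kq) o x1 s n k x0 p - Rm (MT l Kq) o x1 s n js x0 p) ∧
    ∀ g, g < (st n M (XS l n Kq o x1 s p) (n - k) (ix k x0)).1 →
      ∃ j js, k ≤ j ∧ j ≤ js ∧ js ≤ n ∧
        M g < tr6 (Rm (MT l Kq) o x1 s n j x0 p - Rm (MT l Kq) o x1 s n js x0 p) := by
  have hG := gn_st n M (XS l n Kq o x1 s p)
  intro d
  induction d with
  | zero =>
    intro k hk
    obtain rfl : k = n := by omega
    refine ⟨⟨k, le_rfl, le_rfl, ?_⟩, ?_⟩
    · rw [sub_self]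
      exact hG.topR _ _
    · intro g hg
      have := hG.topγ (ix k x0)
      beta_reduce at this
      omega
  | succ d ih =>
    intro k hk
    have hkn : k < n := by omega
    obtain ⟨⟨js, h1, h2, h3⟩, h4⟩ := ih (k + 1) (by omega)
    have e2 : ix (k + 1) x0 = ix k x0 / 2 := ix_half k x0
    rw [e2] at h3 h4
    set γ : ℕ → ℤ → ℕ := fun k m => (st n M (XS l n Kq o x1 s p) (n - k) m).1 with hγ
    set R : ℕ → ℕ → ℤ → Matrix ι ι ℝ := fun g k m =>
      (st n M (XS l n Kq o x1 s p) (n - k) m).2 g with hR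
    change R (γ (k + 1) (ix k x0 / 2)) (k + 1) (ix k x0 / 2) = _ at h3
    have hRk : R (γ (k + 1) (ix k x0 / 2)) k (ix k x0) =
        Rm (MT l Kq) o x1 s n k x0 p - Rm (MT l Kq) o x1 s n js x0 p := by
      rw [Rm_succ hkn, Lm_XS (show k + 1 ≤ n by omega), e2]
      rcases Gn.two_cases (ix k x0) with e | e
      · have h5 := hG.left k hkn (ix k x0 / 2) (γ (k + 1) (ix k x0 / 2))
        rw [← e, if_pos rfl, h3] at h5
        have e3 : hs (k + 1) x0 = 1 := by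
          unfold PL.hs
          rw [Nat.add_sub_cancel, if_pos (by omega)]
        rw [h5, e3, one_smul]
        abel
      · have h5 := hG.right k hkn (ix k x0 / 2) (γ (k + 1) (ix k x0 / 2))
        rw [← e, if_pos rfl, h3] at h5
        have e3 : hs (k + 1) x0 = -1 := by
          unfold PL.hs
          rw [Nat.add_sub_cancel, if_neg (by omega)]
        rw [h5, e3, neg_smul, one_smul]
        abel
    rcases le_or_gt (tr6 (R (γ (k + 1) (ix k x0 / 2)) k (ix k x0)))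
      (M (γ (k + 1) (ix k x0 / 2))) with hc | hc
    · have e : γ k (ix k x0) = γ (k + 1) (ix k x0 / 2) := hG.stay k hkn _ (ix k x0) rfl hc
      refine ⟨⟨js, by omega, h2, ?_⟩, ?_⟩
      · change R (γ k (ix k x0)) k (ix k x0) = _
        rw [e]
        exact hRk
      · intro g hg
        change g < γ k (ix k x0) at hg
        rw [e] at hg
        obtain ⟨j, js', a, b, c, d'⟩ := h4 g hg
        exact ⟨j, js', by omega, b, c, d'⟩
    · have e : γ k (ix k x0) = γ (k + 1) (ix k x0 / 2) + 1 := hG.next k hkn _ (ix k x0) rfl hc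
      refine ⟨⟨k, le_rfl, by omega, ?_⟩, ?_⟩
      · rw [sub_self]
        exact hG.zero_child (γ k (ix k x0)) hkn (ix k x0) (by rw [e]; exact Nat.lt_succ_self _)
      · intro g hg
        change g < γ k (ix k x0) at hg
        rw [e] at hg
        rcases Nat.lt_succ_iff_lt_or_eq.1 hg with h | h
        · obtain ⟨j, js', a, b, c, d'⟩ := h4 g h
          exact ⟨j, js', by omega, b, c, d'⟩
        · rw [h]
          refine ⟨k, js, le_rfl, by omega, h2, ?_⟩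
          rw [← hRk]
          exact hc

section flow

variable {G : ℕ → ℤ → Matrix ι ι ℝ} (hT : H420.Tr l n G Kq)

include hT in
theorem Rm_sym (k : ℕ) (x0 p : ℤ) :
    (Rm (MT l Kq) o x1 s n k x0 p)ᵀ = Rm (MT l Kq) o x1 s n k x0 p := by
  unfold H841.Rm
  rw [transpose_sum]
  refine sum_congr rfl fun i hi => ?_
  have hi' := (mem_Ico.1 hi).2
  have h : (XS l n Kq o x1 s p (i + 1) (ix (i + 1) x0))ᵀ = XS l n Kq o x1 s p (i + 1) (ix (i + 1) x0) :=
    XT_symm hT _ _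
  rw [Lm_XS (show i + 1 ≤ n by omega), transpose_smul, h]

include hT in
/-- a stop is a large deviation of the full slot -/
theorem big {κ : ℕ → ℝ} {g k : ℕ} (hk : k ≤ n) (x0 p : ℤ)
    (h : g < gmm l n Kq (fun g => κ g ^ 6) o x1 s k (ix k x0) (ix k p)) :
    ∃ j js, k ≤ j ∧ j ≤ js ∧ js ≤ n ∧
      κ g ^ 2 < hsn (Rm (MT l Kq) o x1 s n j x0 p - Rm (MT l Kq) o x1 s n js x0 p) := by
  rw [gmm_eq hk] at h
  obtain ⟨j, js, a, b, c, d⟩ := (path (l := l) (Kq := Kq) (o := o) (x1 := x1) (s := s) x0 p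
    (n - k) k (by omega)).2 g h
  refine ⟨j, js, a, b, c, ?_⟩
  have h1 := tr6_le_hsn (A := Rm (MT l Kq) o x1 s n j x0 p - Rm (MT l Kq) o x1 s n js x0 p)
    (by rw [transpose_sub, Rm_sym hT, Rm_sym hT])
  by_contra h2
  have h3 := pow_le_pow_left₀ (hsn_nonneg _) (not_lt.1 h2) 3
  have h4 : (κ g ^ 2) ^ 3 = κ g ^ 6 := by ring
  rw [h4] at h3
  exact absurd (d.trans_le (h1.trans h3)) (lt_irrefl _)

end flow

/-! ### The cells -/

theorem ix_near {k : ℕ} {p q : ℤ} (h : |p - q| ≤ 2 ^ k) : |ix k p - ix k q| ≤ 1 := by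
  have hp : (0 : ℤ) < 2 ^ k := by positivity
  obtain ⟨a1, a2⟩ := H841.ix_bd k p
  obtain ⟨b1, b2⟩ := H841.ix_bd k q
  rw [abs_le] at h ⊢
  set P : ℤ := 2 ^ k
  constructor
  · by_contra h'
    have h3 : ix k p + 2 ≤ ix k q := by omega
    have h4 : P * (ix k p + 2) ≤ P * ix k q := mul_le_mul_of_nonneg_left h3 hp.le
    linarith [h.1]
  · by_contra h'
    have h3 : ix k q + 2 ≤ ix k p := by omega
    have h4 : P * (ix k q + 2) ≤ P * ix k p := mul_le_mul_of_nonneg_left h3 hp.le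
    linarith [h.2]

theorem ix_near' {k j : ℕ} (hkj : k ≤ j) {p q : ℤ} (h : |ix k p - ix k q| ≤ 1) :
    |ix j p - ix j q| ≤ 1 := by
  have e : ∀ z : ℤ, ix j z = ix (j - k) (ix k z) := fun z => by
    rw [ix_ix, Nat.add_sub_cancel' hkj]
  rw [e p, e q]
  exact ix_near (h.trans (one_le_pow₀ (by norm_num)))

/-- the cells of `x0` with a large neighbour above the cell of `y` -/
def Dg (l : ℝ) (n : ℕ) (Kq : ℕ → ℤ → Matrix ι ι ℝ) (o x1 : ℤ) (s : ℕ → ℤ → ℤ → ℝ) (κ : ℝ) (y : ℤ)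
    (k : ℕ) (a : ℤ) : Prop :=
  ∃ j, k ≤ j ∧ j ≤ n ∧ ∃ q, |ix j q - ix j y| ≤ 1 ∧
    κ ^ 2 ≤ 16 * hsn (Rm (MT l Kq) o x1 s n j (2 ^ k * a) q)

theorem Dg_of {κ : ℝ} {y : ℤ} {k j : ℕ} (hkj : k ≤ j) (hj : j ≤ n) {x0 q : ℤ}
    (hq : |ix j q - ix j y| ≤ 1) (h : κ ^ 2 ≤ 16 * hsn (Rm (MT l Kq) o x1 s n j x0 q)) :
    Dg l n Kq o x1 s κ y k (ix k x0) := by
  refine ⟨j, hkj, hj, q, hq, ?_⟩
  rw [Rm_ix (y0 := x0) (q := q) (ix_le hkj (ix_two k (ix k x0))) rfl]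
  exact h

theorem Dg_mono {κ : ℝ} {y : ℤ} {k : ℕ} {a : ℤ} (h : Dg l n Kq o x1 s κ y (k + 1) (a / 2)) :
    Dg l n Kq o x1 s κ y k a := by
  obtain ⟨j, h1, h2, q, h3, h4⟩ := h
  refine ⟨j, by omega, h2, q, h3, ?_⟩
  have e : ix (k + 1) ((2 : ℤ) ^ k * a) = a / 2 := by rw [ix_half, ix_two]
  have e2 : ix (k + 1) ((2 : ℤ) ^ (k + 1) * (a / 2)) = ix (k + 1) ((2 : ℤ) ^ k * a) := by
    rw [ix_two, e]
  rw [Rm_ix (y0 := (2 : ℤ) ^ k * a) (q := q) (ix_le h1 e2) rfl] at h4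
  exact h4

/-- the event of `Dg 0` is inside the event of the three points `y`, `y ± 2 ^ j` -/
theorem Dg_three {κ : ℝ} {y x0 : ℤ} (h : Dg l n Kq o x1 s κ y 0 x0) :
    ∃ j ≤ n, ∃ p, (p = y ∨ p = y + 2 ^ j ∨ p = y - 2 ^ j) ∧
      (κ / 2) ^ 2 ≤ 4 * ∑ a, nsq (Rm (MT l Kq) o x1 s n j x0 p *ᵥ Pi.single a 1) := by
  obtain ⟨j, _, h2, q, h3, h4⟩ := h
  rw [pow_zero, one_mul] at h4
  have hp : (0 : ℤ) < 2 ^ j := by positivity
  have key : ∀ d : ℤ, ix j (y + 2 ^ j * d) = ix j y + d := by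
    intro d
    unfold PL.ix
    rw [Int.add_mul_ediv_left _ _ hp.ne']
  have fin : ∀ d : ℤ, ix j q = ix j y + d → (κ / 2) ^ 2 ≤
      4 * ∑ a, nsq (Rm (MT l Kq) o x1 s n j x0 (y + 2 ^ j * d) *ᵥ Pi.single a 1) := by
    intro d hd
    have e1 : Rm (MT l Kq) o x1 s n j x0 q = Rm (MT l Kq) o x1 s n j x0 (y + 2 ^ j * d) :=
      Rm_ix rfl (by rw [key, hd])
    rw [e1] at h4
    unfold hsn at h4
    have e2 : (κ / 2) ^ 2 = κ ^ 2 / 4 := by ring
    rw [e2]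
    linarith
  refine ⟨j, h2, ?_⟩
  rw [abs_le] at h3
  have h5 : ix j q = ix j y + (-1) ∨ ix j q = ix j y + 0 ∨ ix j q = ix j y + 1 := by omega
  rcases h5 with h5 | h5 | h5
  · exact ⟨_, Or.inr (Or.inr (by ring)), fin _ h5⟩
  · exact ⟨_, Or.inl (by ring), fin _ h5⟩
  · exact ⟨_, Or.inr (Or.inl (by ring)), fin _ h5⟩

/-! ### The hypotheses of the masked sums -/

section flow

variable {G : ℕ → ℤ → Matrix ι ι ℝ} (hT : H420.Tr l n G Kq)

/-- a nonzero sign of the generation `g + 1` -/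
theorem gmm_of_sG {g k : ℕ} {a b : ℤ} (h : sG l n Kq M o x1 s (g + 1) k a b ≠ 0) :
    g < gmm l n Kq M o x1 s k a b := by
  unfold H540.sG at h
  by_cases hc : gmm l n Kq M o x1 s k a b = g + 1
  · omega
  · rw [if_neg hc] at h
    exact absurd rfl h

/-- one of two matrices is large -/
theorem two_big {κ : ℝ} {A B : Matrix ι ι ℝ} (h : κ ^ 2 < hsn (A - B)) :
    κ ^ 2 ≤ 16 * hsn A ∨ κ ^ 2 ≤ 16 * hsn B := by
  have h1 := hsn_sub_le A B
  by_contra h2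
  rw [not_or, not_le, not_le] at h2
  linarith [hsn_nonneg A, hsn_nonneg B]

include hT in
/-- **(h1)** -/
theorem h1_sG {κ : ℕ → ℝ} {g i : ℕ} (hi : i < n) {x0 p y : ℤ}
    (hp : |ix (i + 1) p - ix (i + 1) y| ≤ 1)
    (hs0 : sG l n Kq (fun g => κ g ^ 6) o x1 s (g + 1) (i + 1) (ix (i + 1) x0) (ix (i + 1) p) ≠ 0) :
    Dg l n Kq o x1 s (κ g) y (i + 1) (ix (i + 1) x0) := by
  obtain ⟨j, js, a, b, c, d⟩ := big hT (by omega) x0 p (gmm_of_sG hs0)
  rcases two_big d with h | h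
  · exact Dg_of a (b.trans c) (ix_near' a hp) h
  · exact Dg_of (a.trans b) c (ix_near' (a.trans b) hp) h

include hT in
/-- **(h2)** -/
theorem h2_sG (hs1 : ∀ k a b, |s k a b| ≤ 1) {κ : ℕ → ℝ} {g k i : ℕ} (hk : k ≤ n) (hik : i < k)
    {x0 p y : ℤ} (hp : |p - y| ≤ 2 ^ k)
    (hs0 : sG l n Kq (fun g => κ g ^ 6) o x1 s (g + 1) (i + 1) (ix (i + 1) x0) (ix (i + 1) p) ≠ 0) :
    Dg l n Kq o x1 s (κ g) y k (ix k x0) ∨
      κ g ^ 2 / 16 ≤ ((k - i : ℕ) : ℝ) * ∑ m ∈ Ico (i + 1) k,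
        hsn (MT l Kq (m + 1) (ck o x1 p (m + 1) - ix (m + 1) x0)) := by
  by_cases hD : Dg l n Kq o x1 s (κ g) y k (ix k x0)
  · exact Or.inl hD
  right
  have hy := ix_near hp
  have small : ∀ j, k ≤ j → j ≤ n → 16 * hsn (Rm (MT l Kq) o x1 s n j x0 p) < κ g ^ 2 := by
    intro j h1 h2
    by_contra h3
    exact hD (Dg_of h1 h2 (ix_near' h1 hy) (not_lt.1 h3))
  obtain ⟨j, js, a, b, c, d⟩ := big hT (show i + 1 ≤ n by omega) x0 p (gmm_of_sG hs0)
  -- the slot between two scales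
  have hdiff : ∀ j₁ j₂, i + 1 ≤ j₁ → j₁ ≤ j₂ → j₂ ≤ k →
      hsn (Rm (MT l Kq) o x1 s n j₁ x0 p - Rm (MT l Kq) o x1 s n j₂ x0 p) ≤
        ((k - i : ℕ) : ℝ) * ∑ m ∈ Ico (i + 1) k,
          hsn (MT l Kq (m + 1) (ck o x1 p (m + 1) - ix (m + 1) x0)) := by
    intro j₁ j₂ h1 h2 h3
    have e : Rm (MT l Kq) o x1 s n j₁ x0 p - Rm (MT l Kq) o x1 s n j₂ x0 p =
        ∑ m ∈ Ico j₁ j₂, Lm (MT l Kq) o x1 s (m + 1) x0 p := by
      unfold H841.Rm
      rw [← sum_Ico_consecutive _ h2 (h3.trans hk), add_sub_cancel_right]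
    rw [e]
    refine (hsn_sum_le _ _).trans ?_
    have hL : ∀ m, hsn (Lm (MT l Kq) o x1 s (m + 1) x0 p) ≤
        hsn (MT l Kq (m + 1) (ck o x1 p (m + 1) - ix (m + 1) x0)) := fun m =>
      sum_le_sum fun a _ => Lm_le hs1 (m + 1) x0 p _
    have h4 : ∑ m ∈ Ico j₁ j₂, hsn (Lm (MT l Kq) o x1 s (m + 1) x0 p) ≤
        ∑ m ∈ Ico (i + 1) k, hsn (MT l Kq (m + 1) (ck o x1 p (m + 1) - ix (m + 1) x0)) :=
      (sum_le_sum fun m _ => hL m).trans (sum_le_sum_of_subset_of_nonneg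
        (Ico_subset_Ico h1 h3) fun _ _ _ => hsn_nonneg _)
    refine mul_le_mul ?_ h4 (sum_nonneg fun _ _ => hsn_nonneg _) (by positivity)
    rw [Nat.card_Ico]
    exact_mod_cast (show j₂ - j₁ ≤ k - i by omega)
  rcases le_or_gt k j with hkj | hkj
  · -- both scales are above `k`
    rcases two_big d with h | h
    · exact absurd h (not_le.2 (small j hkj (b.trans c)))
    · exact absurd h (not_le.2 (small js (hkj.trans b) c))
  · rcases le_or_gt js k with hjk | hjk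
    · have h1 := hdiff j js a b hjk
      have h2 : 0 ≤ κ g ^ 2 := sq_nonneg _
      linarith
    · have h1 := hdiff j k a hkj.le le_rfl
      have e : Rm (MT l Kq) o x1 s n j x0 p - Rm (MT l Kq) o x1 s n js x0 p =
          (Rm (MT l Kq) o x1 s n j x0 p - Rm (MT l Kq) o x1 s n k x0 p) +
          (Rm (MT l Kq) o x1 s n k x0 p - Rm (MT l Kq) o x1 s n js x0 p) := by abel
      rw [e] at d
      have h2 := hsn_add_le (Rm (MT l Kq) o x1 s n j x0 p - Rm (MT l Kq) o x1 s n k x0 p)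
        (Rm (MT l Kq) o x1 s n k x0 p - Rm (MT l Kq) o x1 s n js x0 p)
      have h3 := hsn_sub_le (Rm (MT l Kq) o x1 s n k x0 p) (Rm (MT l Kq) o x1 s n js x0 p)
      have h4 := small k le_rfl hk
      have h5 := small js hjk.le c
      have h6 : 0 ≤ κ g ^ 2 := sq_nonneg _
      linarith

end flow

end

end Vale.Agent.P141.H232
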